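import Vale.Agent.P249_h17.Embed

namespace Vale.Agent.Results.P249.NearLinear

open MeasureTheory
open scoped ENNReal

universe u

/-- The map `f`, defined on the finite set `X` of points of the normed space `E`, has distortion
at most `D`: for some scale `s > 0`, `s ‖x - y‖ ≤ ‖f x - f y‖ ≤ D s ‖x - y‖` on `X`. -/
def DistortionAtMost {E F : Type*} [NormedAddCommGroup E] [NormedAddCommGroup F]
    (X : Finset E) (f : X → F) (D : ℝ) : Prop :=
  ∃ s : ℝ, 0 < s ∧ ∀ x y : X,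
    s * ‖(x : E) - (y : E)‖ ≤ ‖f x - f y‖ ∧ ‖f x - f y‖ ≤ D * s * ‖(x : E) - (y : E)‖

/-- Every `n`-point subset of every real `L_p(μ)` space admits a map into `ℓ_p^d` with
distortion at most `D`. -/
def Suffices (p : ℝ≥0∞) [Fact (1 ≤ p)] (n : ℕ) (D : ℝ) (d : ℕ) : Prop :=
  ∀ (Ω : Type u) [MeasurableSpace Ω] (μ : Measure Ω) (X : Finset (Lp ℝ p μ)), X.card = n →
    ∃ f : X → PiLp p (fun _ : Fin d => ℝ), DistortionAtMost X f D

/-- `d_p(n, D)`: the least `d` such that every `n`-point subset of every `L_p` space admits a map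
into `ℓ_p^d` with distortion at most `D`. -/
noncomputable def dimLp (p : ℝ≥0∞) [Fact (1 ≤ p)] (n : ℕ) (D : ℝ) : ℕ :=
  sInf {d : ℕ | Suffices.{u} p n D d}

/-- For every `1 ≤ p < ∞` there is `C_p` with
`d_p(n, D) ≤ C_p ((D+1)/(D-1))² n log n` for all `n ≥ 2` and `D > 1`. -/
theorem result (p : ℝ≥0∞) [Fact (1 ≤ p)] (hp : p ≠ ∞) :
    ∃ C : ℝ, 0 < C ∧ ∀ (n : ℕ) (D : ℝ), 2 ≤ n → 1 < D →
      Suffices.{u} p n D (dimLp.{u} p n D) ∧
      (dimLp.{u} p n D : ℝ) ≤ C * ((D + 1) / (D - 1)) ^ 2 * (n * Real.log n) := by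
  classical
  obtain ⟨C, hC, hemb⟩ := Vale.Agent.P249h17.embed.{u} p hp
  refine ⟨C + 1, by linarith, ?_⟩
  intro n D hn hD
  have hnR : (2 : ℝ) ≤ n := by exact_mod_cast hn
  set A : ℝ := ((D + 1) / (D - 1)) ^ 2 * (n * Real.log n) with hA
  have hA1 : 1 ≤ A := by
    have h1 : 1 ≤ (D + 1) / (D - 1) := by rw [le_div_iff₀ (by linarith)]; linarith
    have h2 : 1 ≤ ((D + 1) / (D - 1)) ^ 2 := one_le_pow₀ h1
    have h3 : 1 ≤ (n : ℝ) * Real.log n := by
      have h4 : Real.log 2 ≤ Real.log n := Real.log_le_log (by norm_num) hnR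
      have h5 : (0.69 : ℝ) < Real.log 2 := by have := Real.log_two_gt_d9; linarith
      nlinarith
    rw [hA]
    nlinarith
  set N : ℕ := ⌈C * A⌉₊ with hN
  have hsuff : Suffices.{u} p n D N := by
    intro Ω _ μ X hX
    let e : Fin n ≃ X := (Finset.equivFinOfCardEq hX).symm
    obtain ⟨f, s, hs, hf⟩ := hemb Ω μ n hn (fun i => (e i : Lp ℝ p μ))
      (fun i j hij => e.injective (Subtype.ext hij)) D hD N (by
        have h := Nat.le_ceil (C * A)
        refine le_trans (le_of_eq ?_) h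
        rw [hA]; ring)
    refine ⟨fun x => f (e.symm x), s, hs, ?_⟩
    intro x y
    have h := hf (e.symm x) (e.symm y)
    simpa using h
  have hmem : dimLp.{u} p n D ∈ {d : ℕ | Suffices.{u} p n D d} := Nat.sInf_mem ⟨N, hsuff⟩
  refine ⟨hmem, ?_⟩
  have hle : dimLp.{u} p n D ≤ N := Nat.sInf_le hsuff
  calc (dimLp.{u} p n D : ℝ) ≤ N := by exact_mod_cast hle
    _ ≤ C * A + 1 := (Nat.ceil_lt_add_one (by positivity)).le
    _ ≤ (C + 1) * A := by nlinarith
    _ = (C + 1) * ((D + 1) / (D - 1)) ^ 2 * (n * Real.log n) := by rw [hA]; ring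

end Vale.Agent.Results.P249.NearLinear
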